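import Vale.Agent.P011N.G2c.Real

/-!
Abelian groups of infinite rank of `p`-adic matrices.
-/

open Topology Filter Polynomial

namespace Vale.Agent.P011N.G2c

theorem char_of_spec {Ω B : Type} [Field Ω] [IsAlgClosed Ω] [CommRing B] [Algebra Ω B]
    [Module.Finite Ω B] {y : B} {μ : Ω} (h : μ ∈ spectrum Ω y) : ∃ χ : B →ₐ[Ω] Ω, χ y = μ := by
  obtain ⟨m, hm, h1⟩ := exists_max_ideal_of_mem_nonunits (spectrum.mem_iff.1 h)
  let e := AlgEquiv.ofBijective (Algebra.ofId Ω (B ⧸ m))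
    (IsAlgClosed.algebraMap_bijective_of_isIntegral (k := Ω) (K := B ⧸ m))
  let χ : B →ₐ[Ω] Ω := e.symm.toAlgHom.comp (Ideal.Quotient.mkₐ Ω m)
  have h2 : χ (algebraMap Ω B μ - y) = 0 := by
    simp only [χ, AlgHom.comp_apply, Ideal.Quotient.mkₐ_eq_mk, Ideal.Quotient.eq_zero_iff_mem.2 h1,
      map_zero]
  rw [map_sub, AlgHom.commutes, sub_eq_zero] at h2
  exact ⟨χ, h2.symm⟩

/-- The entries are bounded by `ε`. -/
def Sm {d : ℕ} {F : Type} [Norm F] (ε : ℝ) (M : Matrix (Fin d) (Fin d) F) : Prop :=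
  ∀ i k, ‖M i k‖ ≤ ε

section

variable {d : ℕ} {F : Type} [NormedField F] [IsUltrametricDist F]

theorem Sm.add {ε : ℝ} {M N : Matrix (Fin d) (Fin d) F} (h1 : Sm ε M) (h2 : Sm ε N) :
    Sm ε (M + N) := fun i k =>
  (IsUltrametricDist.norm_add_le_max _ _).trans (max_le (h1 i k) (h2 i k))

theorem Sm.mul {a b : ℝ} {M N : Matrix (Fin d) (Fin d) F} (h1 : Sm a M) (h2 : Sm b N) :
    Sm (a * b) (M * N) := fun i k => by
  have ha := (norm_nonneg _).trans (h1 i k)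
  rw [Matrix.mul_apply]
  refine IsUltrametricDist.norm_sum_le_of_forall_le_of_nonneg
    (mul_nonneg ha ((norm_nonneg _).trans (h2 i k))) fun l _ => ?_
  rw [norm_mul]
  exact mul_le_mul (h1 i l) (h2 l k) (norm_nonneg _) ha

omit [IsUltrametricDist F] in
theorem Sm.mono {a b : ℝ} {M : Matrix (Fin d) (Fin d) F} (h1 : Sm a M) (h : a ≤ b) : Sm b M :=
  fun i k => (h1 i k).trans h

theorem Sm.mul_sub {ε : ℝ} (h0 : 0 ≤ ε) (h : ε ≤ 1) {M N : Matrix (Fin d) (Fin d) F}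
    (h1 : Sm ε (M - 1)) (h2 : Sm ε (N - 1)) : Sm ε (M * N - 1) := by
  rw [show M * N - 1 = (M - 1) + (N - 1) + (M - 1) * (N - 1) by noncomm_ring]
  exact (h1.add h2).add ((h1.mul h2).mono (mul_le_of_le_one_left h0 h))

theorem pow_close [ProperSpace F] {x y : Matrix (Fin d) (Fin d) F} (hxy : y * x = 1) {C : ℝ}
    (hx : ∀ n : ℕ, Sm C (x ^ n)) (hy : ∀ n : ℕ, Sm C (y ^ n)) {ε : ℝ} (hε : 0 < ε) :
    ∃ m : ℕ, 0 < m ∧ Sm ε (x ^ m - 1) ∧ Sm ε (y ^ m - 1) := by
  have hC : 0 < max C 1 := lt_max_of_lt_right one_pos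
  obtain ⟨a, -, φ, hφ, h1⟩ := IsCompact.tendsto_subseq (X := Fin d → Fin d → F)
    (isCompact_closedBall 0 (max C 1)) (x := fun n i k => (x ^ n) i k) fun n => by
      rw [mem_closedBall_zero_iff, pi_norm_le_iff_of_nonneg hC.le]
      exact fun i => (pi_norm_le_iff_of_nonneg hC.le).2 fun k => (hx n i k).trans (le_max_left _ _)
  obtain ⟨N, hN⟩ := Metric.cauchySeq_iff'.1 h1.cauchySeq _ (div_pos hε hC)
  have h2 : Sm (ε / max C 1) (x ^ φ (N + 1) - x ^ φ N) := fun i k => by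
    have h3 := hN (N + 1) (Nat.le_succ _)
    rw [dist_eq_norm] at h3
    exact ((norm_le_pi_norm _ k).trans (norm_le_pi_norm _ i)).trans h3.le
  obtain ⟨m, hm⟩ := Nat.exists_eq_add_of_lt (hφ (Nat.lt_succ_self N))
  have h3 : ∀ n : ℕ, y ^ n * x ^ n = 1 := fun n => pow_mul_pow_eq_one n hxy
  have h4 : C * (ε / max C 1) ≤ ε := by
    rw [← mul_div_assoc, div_le_iff₀ hC, mul_comm]
    exact mul_le_mul_of_nonneg_left (le_max_left _ _) hε.le
  refine ⟨m + 1, m.succ_pos, ?_, ?_⟩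
  · rw [show x ^ (m + 1) - 1 = y ^ φ N * (x ^ φ (N + 1) - x ^ φ N) by
      rw [mul_sub, h3, hm, add_assoc, pow_add x (φ N), ← mul_assoc, h3, one_mul]]
    exact ((hy _).mul h2).mono h4
  · have h5 : y ^ (m + 1) - 1 = -(y ^ φ (N + 1) * (x ^ φ (N + 1) - x ^ φ N)) := by
      rw [mul_sub, h3, hm, add_assoc, add_comm (φ N), pow_add y (m + 1), mul_assoc, h3, mul_one,
        neg_sub]
    intro i k
    rw [h5, Matrix.neg_apply, norm_neg]
    exact (((hy _).mul h2).mono h4) i k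

end

variable {p : ℕ} [Fact p.Prime]

theorem val_root {f : ℚ_[p][X]} (hf : f.Monic) {μ : PadicAlgCl p} (h0 : μ ≠ 0)
    (h : aeval μ f = 0) : ∃ z : ℤ, Real.log ‖μ‖ = z • (Real.log p / f.natDegree.factorial) := by
  have hne : f.support.Nonempty := support_nonempty.2 hf.ne_zero
  have h1 : ¬ Set.Pairwise f.support fun i k =>
      ‖algebraMap ℚ_[p] (PadicAlgCl p) (f.coeff i) * μ ^ i‖ ≠
        ‖algebraMap ℚ_[p] (PadicAlgCl p) (f.coeff k) * μ ^ k‖ := by
    intro h1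
    have h2 := IsUltrametricDist.norm_sum_eq_sup'_of_pairwise_ne hne h1
    rw [aeval_def, eval₂_eq_sum, sum_def] at h
    rw [h, norm_zero] at h2
    obtain ⟨i, hi⟩ := hne
    have h3 := Finset.le_sup' (fun i => ‖algebraMap ℚ_[p] (PadicAlgCl p) (f.coeff i) * μ ^ i‖) hi
    rw [← h2, norm_le_zero_iff] at h3
    exact mul_ne_zero ((_root_.map_ne_zero _).2 (mem_support_iff.1 hi)) (pow_ne_zero _ h0) h3
  have h2 : ∃ i ∈ f.support, ∃ k ∈ f.support, i < k ∧
      ‖algebraMap ℚ_[p] (PadicAlgCl p) (f.coeff i) * μ ^ i‖ =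
        ‖algebraMap ℚ_[p] (PadicAlgCl p) (f.coeff k) * μ ^ k‖ := by
    by_contra h2
    push Not at h2
    refine h1 fun i hi k hk hik => ?_
    rcases lt_or_gt_of_ne hik with h3 | h3
    · exact h2 i hi k hk h3
    · exact (h2 k hk i hi h3).symm
  obtain ⟨i, hi, k, hk, hik, h3⟩ := h2
  obtain ⟨m, rfl⟩ := Nat.exists_eq_add_of_lt hik
  obtain ⟨c, hc⟩ := Nat.dvd_factorial m.succ_pos
    (show m + 1 ≤ f.natDegree by have := le_natDegree_of_mem_supp _ hk; omega)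
  have hp : (p : ℝ) ≠ 0 := Nat.cast_ne_zero.2 (Fact.out : p.Prime).ne_zero
  have hμ : ‖μ‖ ≠ 0 := norm_ne_zero_iff.2 h0
  simp only [norm_mul, norm_pow, norm_algebraMap',
    Padic.norm_eq_zpow_neg_valuation (mem_support_iff.1 hi),
    Padic.norm_eq_zpow_neg_valuation (mem_support_iff.1 hk)] at h3
  have h4 := congrArg Real.log h3
  rw [Real.log_mul (zpow_ne_zero _ hp) (pow_ne_zero _ hμ),
    Real.log_mul (zpow_ne_zero _ hp) (pow_ne_zero _ hμ), Real.log_pow, Real.log_pow, Real.log_zpow,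
    Real.log_zpow] at h4
  refine ⟨((f.coeff (i + m + 1)).valuation - (f.coeff i).valuation) * c, ?_⟩
  have h5 : (c : ℝ) ≠ 0 := by
    rintro h5
    rw [Nat.cast_eq_zero.1 h5, mul_zero] at hc
    exact Nat.factorial_ne_zero _ hc
  rw [hc, zsmul_eq_mul]
  push_cast at h4 ⊢
  field_simp
  linarith

theorem bdd_of_roots {d : ℕ} {x : Matrix (Fin d) (Fin d) (PadicAlgCl p)}
    (h : ∀ μ, x.charpoly.IsRoot μ → ‖μ‖ ≤ 1) : ∃ C, ∀ n : ℕ, Sm C (x ^ n) := by
  let O := (PadicAlgCl.valued p).v.integer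
  have h1 : IsIntegral O x := by
    have h2 := (IsAlgClosed.splits x.charpoly).eq_prod_roots_of_monic x.charpoly_monic
    have h3 : ∀ μ ∈ x.charpoly.roots, μ ∈ O := fun μ hμ => h μ (isRoot_of_mem_roots hμ)
    generalize x.charpoly.roots = s at h2 h3
    lift s to Multiset O using h3
    refine ⟨(s.map fun a => X - C a).prod, monic_multisetProd_X_sub_C s, ?_⟩
    rw [← aeval_def, ← aeval_map_algebraMap (PadicAlgCl p), Polynomial.map_multiset_prod]
    convert x.aeval_self_charpoly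
    rw [h2]
    simp
    rfl
  obtain ⟨s, hs⟩ := h1.fg_adjoin_singleton
  obtain ⟨C, hC⟩ := ((s.finite_toSet.prod (Set.finite_univ (α := Fin d × Fin d))).image
    fun q => ‖q.1 q.2.1 q.2.2‖).bddAbove
  have h2 : ∀ y ∈ Submodule.span O (s : Set (Matrix (Fin d) (Fin d) (PadicAlgCl p))),
      Sm (max C 0) y := by
    intro y hy
    induction hy using Submodule.span_induction with
    | mem y hy => exact fun i k => (hC ⟨(y, i, k), ⟨hy, trivial⟩, rfl⟩).trans (le_max_left _ _)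
    | zero => exact fun i k => by simp
    | add y z _ _ h1 h2 => exact h1.add h2
    | smul c y _ h1 =>
      intro i k
      rw [Matrix.smul_apply, Subring.smul_def, smul_eq_mul, norm_mul]
      exact (mul_le_of_le_one_left (norm_nonneg _) c.2).trans (h1 i k)
  refine ⟨max C 0, fun n => h2 _ ?_⟩
  rw [hs]
  exact Subalgebra.pow_mem _ (Algebra.self_mem_adjoin_singleton _ _) n

theorem padic_small {d : ℕ} (j : Multiplicative A →* Matrix (Fin d) (Fin d) ℚ_[p])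
    {L : Submodule ℤ A} (hL : ¬ L.FG) {ε : ℝ} (hε : 0 < ε) :
    ∃ L' ≤ L, ¬ L'.FG ∧ ∀ a ∈ L', Sm ε (j (.ofAdd a) - 1) := by
  let f := algebraMap ℚ_[p] (PadicAlgCl p)
  let j₁ := (f.mapMatrix (m := Fin d)).toMonoidHom.comp j
  let B := Algebra.adjoin (PadicAlgCl p) (Set.range j₁)
  have hcomm : ∀ x ∈ Set.range j₁, ∀ y ∈ Set.range j₁, x * y = y * x := by
    rintro _ ⟨a, rfl⟩ _ ⟨b, rfl⟩
    rw [← map_mul, mul_comm, map_mul]
  let : CommRing B :=
    { (inferInstance : Ring B) with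
      mul_comm := (Algebra.isMulCommutative_adjoin _ hcomm).is_comm.comm }
  let j₂ : Multiplicative A →* B := j₁.codRestrict B fun a => Algebra.subset_adjoin ⟨a, rfl⟩
  have hne : ∀ (χ : B →ₐ[PadicAlgCl p] PadicAlgCl p) a, χ (j₂ a) ≠ 0 := fun χ a =>
    (((Group.isUnit a).map j₂).map χ).ne_zero
  let φ : A →ₗ[ℤ] (B →ₐ[PadicAlgCl p] PadicAlgCl p) → ℝ := AddMonoidHom.toIntLinearMap
    (AddMonoidHom.mk' (fun a χ => Real.log ‖χ (j₂ (.ofAdd a))‖) fun a b => by
      ext χ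
      rw [ofAdd_add, map_mul, map_mul, norm_mul,
        Real.log_mul (norm_ne_zero_iff.2 (hne _ _)) (norm_ne_zero_iff.2 (hne _ _))]
      rfl)
  have h1 : ¬ (L ⊓ LinearMap.ker φ).FG := by
    refine fun h => hL (Submodule.fg_of_fg_map_of_fg_inf_ker φ (Submodule.FG.of_le
      (Submodule.fg_pi (p := fun _ => Submodule.span ℤ {Real.log p / d.factorial})
        fun _ => Submodule.fg_span_singleton _) ?_) h)
    rintro _ ⟨a, -, rfl⟩ χ -
    have h2 : aeval (j₂ (.ofAdd a)) ((j (.ofAdd a)).charpoly.map f) = 0 := by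
      refine Subtype.val_injective ?_
      rw [aeval_subalgebra_coe, ← Matrix.charpoly_map]
      exact Matrix.aeval_self_charpoly _
    have h3 : aeval (χ (j₂ (.ofAdd a))) (j (.ofAdd a)).charpoly = 0 := by
      rw [← aeval_map_algebraMap (PadicAlgCl p), aeval_algHom_apply, h2, map_zero]
    obtain ⟨z, hz⟩ := val_root (Matrix.charpoly_monic _) (hne χ _) h3
    rw [Matrix.charpoly_natDegree_eq_dim, Fintype.card_fin] at hz
    exact Submodule.mem_span_singleton.2 ⟨z, hz.symm⟩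
  have h2 : ∀ a ∈ LinearMap.ker φ, ∃ C, ∀ n : ℕ, Sm C (j (.ofAdd a) ^ n) := by
    intro a ha
    obtain ⟨C, hC⟩ := bdd_of_roots (x := j₁ (.ofAdd a)) fun μ hμ => by
      obtain ⟨χ, hχ⟩ := char_of_spec (AlgHom.spectrum_apply_subset B.val (j₂ (.ofAdd a))
        (Matrix.mem_spectrum_of_isRoot_charpoly hμ))
      have h3 : Real.log ‖χ (j₂ (.ofAdd a))‖ = 0 := congrFun (LinearMap.mem_ker.1 ha) χ
      rw [← hχ, ← Real.log_nonpos_iff (norm_nonneg _), h3]
    refine ⟨C, fun n i k => ?_⟩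
    have h3 := hC n i k
    rw [← map_pow] at h3
    rw [← map_pow, ← norm_algebraMap' (PadicAlgCl p)]
    exact h3
  have hδ : 0 < min ε 1 := lt_min hε one_pos
  let U : AddSubgroup A :=
    { carrier := {a | Sm (min ε 1) (j (.ofAdd a) - 1) ∧ Sm (min ε 1) (j (.ofAdd (-a)) - 1)}
      add_mem' := fun {a b} ha hb => by
        constructor
        · rw [ofAdd_add, map_mul]; exact Sm.mul_sub hδ.le (min_le_right _ _) ha.1 hb.1
        · rw [neg_add, ofAdd_add, map_mul]; exact Sm.mul_sub hδ.le (min_le_right _ _) ha.2 hb.2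
      zero_mem' := by constructor <;> exact fun i k => by simpa using hδ.le
      neg_mem' := fun {a} ha => ⟨ha.2, by rw [neg_neg]; exact ha.1⟩ }
  refine ⟨L ⊓ U.toIntSubmodule, inf_le_left, not_fg_sat h1 fun a ha => ?_,
    fun a ha => ha.2.1.mono (min_le_left _ _)⟩
  obtain ⟨C, hC⟩ := h2 a ha.2
  obtain ⟨D, hD⟩ := h2 _ (Submodule.neg_mem _ ha.2)
  obtain ⟨m, hm, h3, h4⟩ := pow_close (x := j (.ofAdd a)) (y := j (.ofAdd (-a)))
    (by rw [← map_mul, ← ofAdd_add, neg_add_cancel, ofAdd_zero, map_one])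
    (fun n => (hC n).mono (le_max_left C D)) (fun n => (hD n).mono (le_max_right C D)) hδ
  refine ⟨m, hm, L.smul_of_tower_mem m ha.1, ?_, ?_⟩
  · rwa [ofAdd_nsmul, map_pow]
  · rwa [← smul_neg, ofAdd_nsmul, map_pow]

end Vale.Agent.P011N.G2c
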