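import Vale.Agent.P011N.Iface
import Vale.Agent.P011N.G2c.Padic

/-!
An abelian group of infinite rank of rational matrices is not discrete.
-/

open Topology Filter

namespace Vale.Agent.P011N.G2c

theorem all_padic {d : ℕ} (j : Multiplicative A →* Matrix (Fin d) (Fin d) ℚ) {ε : ℝ} (hε : 0 < ε)
    (P : Finset Nat.Primes) : ∃ L : Submodule ℤ A, ¬ L.FG ∧ ∀ a ∈ L, ∀ p ∈ P,
      Sm ε ((j (.ofAdd a)).map (algebraMap ℚ ℚ_[p.1]) - 1) := by
  classical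
  induction P using Finset.induction_on with
  | empty => exact ⟨⊤, top_not_fg, fun _ _ _ h => absurd h (Finset.notMem_empty _)⟩
  | insert q P _ ih =>
    obtain ⟨L, hL, h1⟩ := ih
    obtain ⟨L', h2, h3, h4⟩ := padic_small
      (((algebraMap ℚ ℚ_[q.1]).mapMatrix (m := Fin d)).toMonoidHom.comp j) hL hε
    refine ⟨L', h3, fun a ha p hp => ?_⟩
    rcases Finset.mem_insert.1 hp with rfl | hp
    · exact h4 a ha
    · exact h1 a (h2 ha) p hp

theorem nhds_amb {d : ℕ} {P : Finset Nat.Primes} {U : Set (Amb d P)} (hU : U ∈ 𝓝 1) :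
    ∃ ε > 0, ∀ g : Amb d P, Sm ε (g.1 - 1) → Sm ε ((g⁻¹).1 - 1) → g ∈ U := by
  rw [Units.isEmbedding_embedProduct.nhds_eq_comap, mem_comap] at hU
  obtain ⟨V, hV, hVU⟩ := hU
  obtain ⟨V₁, h1, V₂, h2, h3⟩ := mem_nhds_prod_iff.1 hV
  have h4 : V₁ ∩ MulOpposite.op ⁻¹' V₂ ∈ 𝓝 (1 : Matrix (Fin d) (Fin d) (RP P)) :=
    inter_mem h1 (MulOpposite.continuous_op.continuousAt.preimage_mem_nhds h2)
  obtain ⟨ε, hε, h5⟩ := (Metric.nhds_basis_closedBall (α := Fin d → Fin d → RP P)).mem_iff.1 h4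
  have h6 : ∀ M : Matrix (Fin d) (Fin d) (RP P), Sm ε (M - 1) →
      M ∈ V₁ ∩ MulOpposite.op ⁻¹' V₂ := fun M hM => h5 (Metric.mem_closedBall.2
    ((dist_pi_le_iff hε.le).2 fun i => (dist_pi_le_iff hε.le).2 fun k =>
      (dist_eq_norm _ _).trans_le (hM i k)))
  exact ⟨ε, hε, fun g hg hg' => hVU (h3 ⟨(h6 _ hg).1, (h6 _ hg').2⟩)⟩

theorem sm_rp {d : ℕ} {P : Finset Nat.Primes} {ε : ℝ} (hε : 0 < ε) {M : Matrix (Fin d) (Fin d) ℚ}
    (h1 : Sm ε (M.map (algebraMap ℚ ℂ) - 1))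
    (h2 : ∀ p ∈ P, Sm ε (M.map (algebraMap ℚ ℚ_[p.1]) - 1)) :
    Sm ε (M.map (algebraMap ℚ (RP P)) - 1) := by
  have key : ∀ (F : Type) [CommRing F] [Algebra ℚ F] i k, (M.map (algebraMap ℚ F) - 1) i k =
      algebraMap ℚ F ((M - 1) i k) := by
    intro F _ _ i k
    simp [Matrix.one_apply, apply_ite (algebraMap ℚ F)]
  intro i k
  have h3 := h1 i k
  rw [key] at h3 ⊢
  rw [Prod.norm_def, max_le_iff, pi_norm_le_iff_of_nonneg hε.le]
  refine ⟨?_, fun p => ?_⟩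
  · rw [eq_ratCast, Complex.norm_ratCast] at h3
    exact h3
  · have h4 := h2 p.1 p.2 i k
    rw [key] at h4
    exact h4

/-- **Block G2b**. -/
theorem bigOpen : BigOpenStmt := by
  intro d P j U hU
  obtain ⟨ε, hε, h1⟩ := nhds_amb hU
  let j₁ := (Units.coeHom _).comp j
  obtain ⟨L, hL, h2⟩ := all_padic j₁ hε P
  have h3 : {M : Matrix (Fin d) (Fin d) ℂ | Sm ε (M - 1)} ∈ 𝓝 1 := by
    simp only [Sm, Set.ofPred_forall]
    refine iInter_mem.2 fun i => iInter_mem.2 fun k => ?_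
    have h4 : Continuous fun M : Matrix (Fin d) (Fin d) ℂ => ‖(M - 1) i k‖ := by fun_prop
    exact (h4.tendsto 1).eventually (ge_mem_nhds (by simpa using hε))
  obtain ⟨a, ha, h0, h4, h5⟩ := real_small
    (((algebraMap ℚ ℂ).mapMatrix (m := Fin d)).toMonoidHom.comp j₁) hL h3
  refine ⟨.ofAdd a, h0, h1 _ (sm_rp hε h4 (h2 a ha)) ?_⟩
  rw [← map_inv, ← map_inv]
  exact sm_rp hε h5 (h2 _ (L.neg_mem ha))

end Vale.Agent.P011N.G2c
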