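import Mathlib

/-!
Abelian groups of infinite rank of complex matrices are not discrete.
-/

open Topology Filter NormedSpace

namespace Vale.Agent.P011N.G2c

/-- The free abelian group of countable rank. -/
abbrev A : Type := ℕ →₀ ℤ

theorem top_not_fg : ¬ (⊤ : Submodule ℤ A).FG := fun h => by
  have : Module.Finite ℤ A := ⟨h⟩
  have := Module.Finite.finite_basis (Finsupp.basisSingleOne (ι := ℕ) (R := ℤ))
  exact not_finite ℕ

theorem not_fg_ker {L : Submodule ℤ A} (hL : ¬ L.FG) {M : Type} [AddCommGroup M]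
    [Module.Finite ℤ M] (φ : A →ₗ[ℤ] M) : ¬ (L ⊓ LinearMap.ker φ).FG := fun h =>
  hL (Submodule.fg_of_fg_map_of_fg_inf_ker φ (IsNoetherian.noetherian _) h)

theorem not_fg_sat {L L' : Submodule ℤ A} (hL : ¬ L.FG)
    (h : ∀ a ∈ L, ∃ m : ℕ, 0 < m ∧ m • a ∈ L') : ¬ L'.FG := by
  classical
  rintro ⟨s, hs⟩
  have h1 : L' ≤ Finsupp.supported ℤ ℤ (s.biUnion Finsupp.support : Finset ℕ) := by
    rw [← hs, Submodule.span_le]
    exact fun a ha i hi => Finset.mem_coe.2 (Finset.mem_biUnion.2 ⟨a, ha, hi⟩)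
  have h2 : L ≤ Finsupp.supported ℤ ℤ (s.biUnion Finsupp.support : Finset ℕ) := by
    intro a ha i hi
    obtain ⟨m, hm, h3⟩ := h a ha
    refine h1 h3 (Finsupp.mem_support_iff.2 ?_)
    simpa using ⟨hm.ne', Finsupp.mem_support_iff.1 hi⟩
  have h3 : (Finsupp.supported ℤ ℤ (s.biUnion Finsupp.support : Finset ℕ) : Submodule ℤ A).FG := by
    rw [Finsupp.supported_eq_span_single]
    exact Submodule.fg_span ((Finset.finite_toSet _).image _)
  exact hL (h3.of_le h2)

theorem exists_small {L : Submodule ℤ A} (hL : ¬ L.FG) {E : Type} [NormedAddCommGroup E]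
    [NormedSpace ℝ E] [FiniteDimensional ℝ E] (φ : A →ₗ[ℤ] E) {U : Set E} (hU : U ∈ 𝓝 (0 : E)) :
    ∃ a ∈ L, a ≠ 0 ∧ φ a ∈ U := by
  by_contra hcon
  push Not at hcon
  have h1 : DiscreteTopology (L.map φ) := by
    refine discreteTopology_iff_isOpen_singleton_zero.2 ?_
    obtain ⟨V, hVU, hV, h0⟩ := mem_nhds_iff.1 hU
    refine ⟨V, hV, Set.ext fun x => ⟨fun hx => ?_, fun hx => by rw [hx]; exact h0⟩⟩
    obtain ⟨_, a, ha, rfl⟩ := x
    by_cases h : a = 0
    · simp [h]
    · exact absurd (hVU hx) (hcon a ha h)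
  refine hL (Submodule.fg_of_fg_map_of_fg_inf_ker φ (Module.Finite.iff_fg.1 inferInstance) ?_)
  have h2 : L ⊓ LinearMap.ker φ = ⊥ := (Submodule.eq_bot_iff _).2 fun a ha => by
    by_contra h
    exact hcon a ha.1 h (by rw [LinearMap.mem_ker.1 ha.2]; exact mem_of_mem_nhds hU)
  rw [h2]
  exact Submodule.fg_bot

/-- In a commutative complex algebra of finite dimension every unit is an exponential. -/
theorem exp_surj {B : Type} [NormedCommRing B] [NormedAlgebra ℂ B] [FiniteDimensional ℂ B]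
    (y : B) (hy : IsUnit y) : ∃ z : B, exp z = y := by
  have : CompleteSpace B := FiniteDimensional.complete ℂ B
  have : NormedAlgebra ℚ B := NormedAlgebra.restrictScalars ℚ ℂ B
  have h0 : Set.range (exp : B → B) ∈ 𝓝 (1 : B) := by
    have h := (hasStrictFDerivAt_exp_zero (𝕂 := ℂ) (𝔸 := B))
    have h1 := HasStrictFDerivAt.map_nhds_eq_of_equiv (f' := ContinuousLinearEquiv.refl ℂ B) h
    rw [exp_zero] at h1
    rw [← h1]
    exact range_mem_map
  let c : ℂ → B := fun t => 1 + t • (y - 1)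
  have hc : Continuous c := by fun_prop
  let S : Set ℂ := {t | ¬ IsUnit (c t)}
  have hS : S.Finite := by
    have h1 := (Module.End.finite_spectrum (Algebra.lmul ℂ B (y - 1))).image fun t => -t⁻¹
    refine h1.subset fun t ht => ⟨-t⁻¹, ?_, by simp⟩
    have ht0 : t ≠ 0 := by rintro rfl; exact ht (by simp [c])
    rw [spectrum.mem_iff]
    intro h2
    refine ht ?_
    have h3 : algebraMap ℂ (Module.End ℂ B) (-t⁻¹) - Algebra.lmul ℂ B (y - 1) =
        Algebra.lmul ℂ B ((-t⁻¹) • c t) := by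
      rw [← AlgHom.commutes (Algebra.lmul ℂ B), ← map_sub]
      congr 1
      simp only [c, smul_add, smul_smul, neg_mul, inv_mul_cancel₀ ht0, Algebra.algebraMap_eq_smul_one]
      module
    rw [h3, Algebra.lmul_isUnit_iff] at h2
    have h4 := h2.smul (Units.mk0 (-t) (neg_ne_zero.2 ht0))
    simpa [Units.smul_def, smul_smul, ht0] using h4
  have hconn : IsPreconnected Sᶜ :=
    (hS.countable.isPathConnected_compl_of_one_lt_rank (by simp)).isConnected.isPreconnected
  have key : ∀ t ∈ Sᶜ, ∀ᶠ s in 𝓝 t, (c s ∈ Set.range (exp : B → B) ↔ c t ∈ Set.range exp) := by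
    intro t ht
    obtain ⟨u, hu⟩ := not_not.1 ht
    have h1 : Tendsto (fun s => c s * (u⁻¹ : Bˣ)) (𝓝 t) (𝓝 1) := by
      have := (hc.mul continuous_const (g := fun _ => ((u⁻¹ : Bˣ) : B))).tendsto t
      rwa [Pi.mul_apply, ← hu, Units.mul_inv] at this
    filter_upwards [h1 h0] with s hs
    obtain ⟨z, hz⟩ := hs
    have h2 : c s = exp z * c t := by rw [hz, ← hu, Units.inv_mul_cancel_right]
    constructor
    · rintro ⟨w, hw⟩
      refine ⟨-z + w, ?_⟩
      rw [exp_add, hw, h2, ← mul_assoc, ← exp_add, neg_add_cancel, exp_zero, one_mul]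
    · rintro ⟨w, hw⟩
      exact ⟨z + w, by rw [exp_add, hw, h2]⟩
  have h1 := hconn.induction₂' (fun s t => c s ∈ Set.range (exp : B → B) ↔ c t ∈ Set.range exp)
    (fun t ht => ((key t ht).mono fun s hs => ⟨hs.symm, hs⟩).filter_mono nhdsWithin_le_nhds)
    (fun _ _ _ _ _ _ h1 h2 => h1.trans h2) (x := 0) (y := 1) (by simp [S, c]) (by simpa [S, c])
  simpa [c] using h1.1 ⟨0, by simp [c]⟩

theorem comm_small {B : Type} [NormedCommRing B] [NormedAlgebra ℂ B] [FiniteDimensional ℂ B]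
    (j : Multiplicative A →* B) {L : Submodule ℤ A} (hL : ¬ L.FG) {U : Set B} (hU : U ∈ 𝓝 1) :
    ∃ a ∈ L, a ≠ 0 ∧ j (.ofAdd a) ∈ U ∧ j (.ofAdd (-a)) ∈ U := by
  have : CompleteSpace B := FiniteDimensional.complete ℂ B
  have : NormedAlgebra ℚ B := NormedAlgebra.restrictScalars ℚ ℂ B
  choose Y hY using fun i : ℕ => exp_surj (j (.ofAdd (Finsupp.single i 1)))
    ((Group.isUnit _).map j)
  let φ := Finsupp.linearCombination ℤ Y
  have hφ : ∀ a, exp (φ a) = j (.ofAdd a) := by
    intro a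
    induction a using Finsupp.induction_linear with
    | zero => simp
    | add a b ha hb => rw [map_add φ, exp_add, ha, hb, ofAdd_add, map_mul]
    | single i n =>
      have h2 : φ (Finsupp.single i 1) = Y i := by simp [φ]
      induction n using Int.induction_on with
      | zero => simp
      | succ n ih => rw [Finsupp.single_add, map_add φ, exp_add, ih, ofAdd_add, map_mul, ← hY, h2]
      | pred n ih =>
        have h1 : Finsupp.single i (-(n : ℤ)) = Finsupp.single i (-(n : ℤ) - 1) +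
            Finsupp.single i 1 := by rw [← Finsupp.single_add, sub_add_cancel]
        rw [h1, map_add φ, exp_add, ofAdd_add, map_mul, ← hY, h2] at ih
        refine (IsUnit.mul_left_inj ?_).1 ih
        rw [hY]; exact (Group.isUnit _).map j
  have h1 : (exp : B → B) ⁻¹' U ∈ 𝓝 (0 : B) :=
    exp_continuous.continuousAt.preimage_mem_nhds (by simpa using hU)
  have h2 : (fun z : B => -z) ⁻¹' ((exp : B → B) ⁻¹' U) ∈ 𝓝 (0 : B) :=
    continuous_neg.continuousAt.preimage_mem_nhds (by simpa using h1)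
  let : NormedSpace ℝ B := NormedSpace.restrictScalars ℝ ℂ B
  have : IsScalarTower ℝ ℂ B := IsScalarTower.of_algebraMap_smul fun _ _ => rfl
  have : FiniteDimensional ℝ B := Module.Finite.trans ℂ B
  obtain ⟨a, ha, h0, h3, h4⟩ := exists_small hL φ (inter_mem h1 h2)
  refine ⟨a, ha, h0, ?_, ?_⟩
  · simpa only [Set.mem_preimage, hφ] using h3
  · simpa only [Set.mem_preimage, ← map_neg, hφ] using h4

theorem ring_small {R : Type} [NormedRing R] [NormedAlgebra ℂ R] [FiniteDimensional ℂ R]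
    (j : Multiplicative A →* R) {L : Submodule ℤ A} (hL : ¬ L.FG) {U : Set R} (hU : U ∈ 𝓝 1) :
    ∃ a ∈ L, a ≠ 0 ∧ j (.ofAdd a) ∈ U ∧ j (.ofAdd (-a)) ∈ U := by
  let B := Algebra.adjoin ℂ (Set.range j)
  have hcomm : ∀ x ∈ Set.range j, ∀ y ∈ Set.range j, x * y = y * x := by
    rintro _ ⟨a, rfl⟩ _ ⟨b, rfl⟩
    rw [← map_mul, mul_comm, map_mul]
  let : NormedCommRing B :=
    { (inferInstance : NormedRing B) with
      mul_comm := (Algebra.isMulCommutative_adjoin ℂ hcomm).is_comm.comm }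
  exact comm_small (B := B) (j.codRestrict B fun a => Algebra.subset_adjoin ⟨a, rfl⟩) hL
    (U := Subtype.val ⁻¹' U) (continuous_subtype_val.continuousAt.preimage_mem_nhds hU)

theorem real_small {d : ℕ} (j : Multiplicative A →* Matrix (Fin d) (Fin d) ℂ)
    {L : Submodule ℤ A} (hL : ¬ L.FG) {U : Set (Matrix (Fin d) (Fin d) ℂ)} (hU : U ∈ 𝓝 1) :
    ∃ a ∈ L, a ≠ 0 ∧ j (.ofAdd a) ∈ U ∧ j (.ofAdd (-a)) ∈ U :=
  letI : NormedRing (Matrix (Fin d) (Fin d) ℂ) := Matrix.linftyOpNormedRing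
  letI : NormedAlgebra ℂ (Matrix (Fin d) (Fin d) ℂ) := Matrix.linftyOpNormedAlgebra
  ring_small j hL hU

end Vale.Agent.P011N.G2c
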